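import Mathlib

open scoped NNReal

namespace Vale.Agent.P331

/-- The set accepted by an online decision function: the elements arrive in the order of the list,
and the decision at each arrival sees the history so far (elements with values) and the current
element with its value. -/
def accepted {E : Type} [DecidableEq E] (dec : List (E × ℝ≥0) → E × ℝ≥0 → Bool) (V : E → ℝ≥0) :
    List (E × ℝ≥0) → List E → Finset E
  | _, [] => ∅
  | hist, e :: l =>
    if dec hist (e, V e) then insert e (accepted dec V (hist ++ [(e, V e)]) l)
    else accepted dec V (hist ++ [(e, V e)]) l

end Vale.Agent.P331
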