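import Vale.Agent.P331.Rule

open MeasureTheory
open scoped NNReal ENNReal

namespace Vale.Agent.P331

variable {E : Type} [Fintype E] [DecidableEq E] {k : ℕ}

omit [DecidableEq E] in
lemma measurable_fst_coe (e : E) : Measurable fun x : E → ℝ≥0 × ℝ≥0 => ((x e).1 : ℝ≥0∞) :=
  measurable_coe_nnreal_ennreal.comp (measurable_fst.comp (measurable_pi_apply e))

omit [DecidableEq E] in
lemma measurable_snd_coe (e : E) : Measurable fun x : E → ℝ≥0 × ℝ≥0 => ((x e).2 : ℝ≥0∞) :=
  measurable_coe_nnreal_ennreal.comp (measurable_snd.comp (measurable_pi_apply e))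

lemma measurable_finsupsup (s : Finset E) (f : E → (E → ℝ≥0 × ℝ≥0) → ℝ≥0∞)
    (hf : ∀ e, Measurable (f e)) : Measurable fun x => s.sup fun e => f e x := by
  induction s using Finset.induction_on with
  | empty => simp only [Finset.sup_empty]; exact measurable_const
  | insert a t _ ih => simp only [Finset.sup_insert]; exact (hf a).sup ih

lemma measurable_thr (h : E → Fin k) (g : Fin k) :
    Measurable fun x : E → ℝ≥0 × ℝ≥0 => thr h (fun e => (x e).1) g :=
  measurable_finsupsup _ (fun e x => ((x e).1 : ℝ≥0∞)) measurable_fst_coe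

lemma measurableSet_qual (b : Bool) (h : E → Fin k) (a : E) :
    MeasurableSet {x : E → ℝ≥0 × ℝ≥0 | Qual b h (fun e => (x e).1) (a, (x a).2)} := by
  cases b with
  | true =>
    simpa [Qual] using measurableSet_lt (measurable_thr h (h a)) (measurable_snd_coe a)
  | false =>
    simpa [Qual] using measurableSet_le (measurable_thr h (h a)) (measurable_snd_coe a)

lemma measurableSet_dec (ω : (E → Fin k) × Bool) (hl : List E) (a : E) :
    MeasurableSet {x : E → ℝ≥0 × ℝ≥0 |
      dec ω (fun e => (x e).1) (hl.map fun c => (c, (x c).2)) (a, (x a).2) = true} := by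
  obtain ⟨h, b⟩ := ω
  simp only [dec_iff, List.forall_mem_map]
  refine measurableSet_setOf.mpr (Measurable.and ?_ ?_)
  · exact measurableSet_setOf.mp (measurableSet_qual b h a)
  · refine Measurable.forall fun c => Measurable.imp measurable_const
      (Measurable.imp measurable_const ?_)
    exact (measurableSet_setOf.mp (measurableSet_qual b h c)).not

lemma measurableSet_accepted (ω : (E → Fin k) × Bool) (e : E) :
    ∀ (l hl : List E), MeasurableSet {x : E → ℝ≥0 × ℝ≥0 |
      e ∈ accepted (dec ω fun c => (x c).1) (fun c => (x c).2)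
        (hl.map fun c => (c, (x c).2)) l} := by
  intro l
  induction l with
  | nil => intro hl; simp [accepted]
  | cons a l ih =>
    intro hl
    have h1 := measurableSet_setOf.mp (ih (hl ++ [a]))
    have h2 := measurableSet_setOf.mp (measurableSet_dec ω hl a)
    simp only [List.map_append, List.map_cons, List.map_nil] at h1
    have : ∀ x : E → ℝ≥0 × ℝ≥0,
        (e ∈ accepted (dec ω fun c => (x c).1) (fun c => (x c).2)
          (hl.map fun c => (c, (x c).2)) (a :: l)) ↔
        ((dec ω (fun c => (x c).1) (hl.map fun c => (c, (x c).2)) (a, (x a).2) = true ∧ e = a) ∨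
          e ∈ accepted (dec ω fun c => (x c).1) (fun c => (x c).2)
            ((hl.map fun c => (c, (x c).2)) ++ [(a, (x a).2)]) l) := by
      intro x
      rw [accepted]
      split_ifs with hd <;> simp [hd]
    simp only [this]
    exact measurableSet_setOf.mpr (Measurable.or (Measurable.and h2 measurable_const) h1)

lemma measurable_low (h : E → Fin k) (g : Fin k) :
    Measurable (fun x : E → ℝ≥0 × ℝ≥0 => lowT h g (smp x) (vl x)) ∧
      Measurable (fun x : E → ℝ≥0 × ℝ≥0 => lowF h g (smp x) (vl x)) := by
  classical
  constructor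
  · simp only [lowT, iSup_eq_if]
    refine Measurable.iSup fun e => ?_
    by_cases he : e ∈ grp h g
    · simp only [if_pos he]
      refine Measurable.ite ?_ (measurable_snd_coe e) measurable_const
      refine measurableSet_setOf.mpr (Measurable.and ?_ ?_)
      · exact measurableSet_setOf.mp (measurableSet_lt (measurable_thr h g) (measurable_snd_coe e))
      · exact Measurable.forall fun c => Measurable.imp measurable_const
          (Measurable.imp measurable_const (measurableSet_setOf.mp
            (measurableSet_le (measurable_snd_coe c) (measurable_thr h g))))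
    · simp only [if_neg he]
      exact measurable_const
  · simp only [lowF, iSup_eq_if]
    refine Measurable.iSup fun e => ?_
    by_cases he : e ∈ grp h g
    · simp only [if_pos he]
      exact Measurable.ite (measurableSet_le (measurable_thr h g) (measurable_snd_coe e))
        (measurable_thr h g) measurable_const
    · simp only [if_neg he]
      exact measurable_const

lemma integral_bound (D : E → Measure ℝ≥0) [∀ e, IsProbabilityMeasure (D e)]
    (h : E → Fin k) (g : Fin k) :
    ∫⁻ x, top h g (vl x) ∂(Measure.pi fun e => (D e).prod (D e)) ≤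
      4 * ∫⁻ x, low h g x ∂(Measure.pi fun e => (D e).prod (D e)) := by
  set P := Measure.pi fun e => (D e).prod (D e) with hP
  have hlow : Measurable fun x : E → ℝ≥0 × ℝ≥0 => low h g x :=
    (measurable_low h g).1.add (measurable_low h g).2
  have htop : Measurable fun x : E → ℝ≥0 × ℝ≥0 => top h g (vl x) :=
    measurable_finsupsup _ (fun e x => ((x e).2 : ℝ≥0∞)) measurable_snd_coe
  have hsw : ∀ σ : E → Bool, MeasurePreserving (sw σ) P P := by
    intro σ
    have hf : ∀ e, MeasurePreserving (fun p : ℝ≥0 × ℝ≥0 => if σ e then p.swap else p)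
        ((D e).prod (D e)) ((D e).prod (D e)) := by
      intro e
      cases σ e
      · simp only [Bool.false_eq_true, if_false]
        exact MeasurePreserving.id _
      · simpa using Measure.measurePreserving_swap (μ := D e) (ν := D e)
    exact measurePreserving_pi _ _ hf
  have key : ∫⁻ x, ∑ σ : E → Bool, top h g (vl (sw σ x)) ∂P ≤
      ∫⁻ x, 4 * ∑ σ : E → Bool, low h g (sw σ x) ∂P :=
    lintegral_mono fun x => swap_bound h g x
  have m1 : ∀ σ, Measurable fun x => top h g (vl (sw σ x)) := fun σ =>
    htop.comp (hsw σ).measurable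
  have m2 : ∀ σ, Measurable fun x => low h g (sw σ x) := fun σ =>
    hlow.comp (hsw σ).measurable
  have i1 : ∀ σ, ∫⁻ x, top h g (vl (sw σ x)) ∂P = ∫⁻ x, top h g (vl x) ∂P := fun σ =>
    (hsw σ).lintegral_comp htop
  have i2 : ∀ σ, ∫⁻ x, low h g (sw σ x) ∂P = ∫⁻ x, low h g x ∂P := fun σ =>
    (hsw σ).lintegral_comp hlow
  rw [lintegral_finsetSum _ (fun σ _ => m1 σ),
    lintegral_const_mul _ (Finset.measurable_sum _ fun σ _ => m2 σ),
    lintegral_finsetSum _ (fun σ _ => m2 σ)] at key
  simp only [i1, i2, Finset.sum_const, nsmul_eq_mul] at key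
  rw [mul_left_comm] at key
  refine (ENNReal.mul_le_mul_iff_right ?_ ?_).mp key
  · simp
  · simp

end Vale.Agent.P331
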