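import Vale.Agent.P331.Defs

open MeasureTheory
open scoped NNReal ENNReal

namespace Vale.Agent.P331

variable {E : Type} [Fintype E] [DecidableEq E] {k : ℕ}

/-- The group of the element colour `g`. -/
def grp (h : E → Fin k) (g : Fin k) : Finset E := Finset.univ.filter fun e => h e = g

lemma mem_grp {h : E → Fin k} {g : Fin k} {e : E} : e ∈ grp h g ↔ h e = g := by simp [grp]

/-- Threshold of a group: its largest sample. -/
noncomputable def thr (h : E → Fin k) (S : E → ℝ≥0) (g : Fin k) : ℝ≥0∞ :=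
  (grp h g).sup fun e => (S e : ℝ≥0∞)

/-- An element qualifies if it beats (`b = true`) or reaches (`b = false`) its group threshold. -/
def Qual (b : Bool) (h : E → Fin k) (S : E → ℝ≥0) (p : E × ℝ≥0) : Prop :=
  if b then thr h S (h p.1) < (p.2 : ℝ≥0∞) else thr h S (h p.1) ≤ (p.2 : ℝ≥0∞)

/-- Take the first qualifying element of each group. -/
noncomputable def dec (ω : (E → Fin k) × Bool) (S : E → ℝ≥0) (hist : List (E × ℝ≥0))
    (p : E × ℝ≥0) : Bool := by
  classical
  exact decide (Qual ω.2 ω.1 S p ∧ ∀ q ∈ hist, ω.1 q.1 = ω.1 p.1 → ¬ Qual ω.2 ω.1 S q)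

lemma dec_iff (h : E → Fin k) (b : Bool) (S : E → ℝ≥0) (hist : List (E × ℝ≥0)) (p : E × ℝ≥0) :
    dec (h, b) S hist p = true ↔
      Qual b h S p ∧ ∀ q ∈ hist, h q.1 = h p.1 → ¬ Qual b h S q := by
  simp only [dec, decide_eq_true_eq]

lemma acc_mem (h : E → Fin k) (b : Bool) (S V : E → ℝ≥0) :
    ∀ (l : List E) (hist : List (E × ℝ≥0)) (e : E),
      e ∈ accepted (dec (h, b) S) V hist l →
      Qual b h S (e, V e) ∧ ∀ q ∈ hist, h q.1 = h e → ¬ Qual b h S q := by
  intro l
  induction l with
  | nil => intro hist e he; simp [accepted] at he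
  | cons a l ih =>
    intro hist e he
    have rec_case : e ∈ accepted (dec (h, b) S) V (hist ++ [(a, V a)]) l →
        Qual b h S (e, V e) ∧ ∀ q ∈ hist, h q.1 = h e → ¬ Qual b h S q := fun he' =>
      ⟨(ih _ e he').1, fun q hq => (ih _ e he').2 q (List.mem_append_left _ hq)⟩
    rw [accepted] at he
    split_ifs at he with hd
    · rcases Finset.mem_insert.mp he with rfl | he'
      · exact (dec_iff h b S hist _).mp hd
      · exact rec_case he'
    · exact rec_case he

lemma acc_inj (h : E → Fin k) (b : Bool) (S V : E → ℝ≥0) :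
    ∀ (l : List E) (hist : List (E × ℝ≥0)),
      Set.InjOn h (accepted (dec (h, b) S) V hist l : Set E) := by
  intro l
  induction l with
  | nil => intro hist; simp [accepted]
  | cons a l ih =>
    intro hist
    rw [accepted]
    split_ifs with hd
    · have key : ∀ e ∈ accepted (dec (h, b) S) V (hist ++ [(a, V a)]) l, h a ≠ h e := by
        intro e he heq
        exact (acc_mem h b S V l _ e he).2 (a, V a) (by simp) heq
          ((dec_iff h b S hist _).mp hd).1
      intro x hx y hy hxy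
      rw [Finset.coe_insert, Set.mem_insert_iff] at hx hy
      rcases hx with rfl | hx <;> rcases hy with rfl | hy
      · rfl
      · exact absurd hxy (key y hy)
      · exact absurd hxy.symm (key x hx)
      · exact ih _ hx hy hxy
    · exact ih _

lemma acc_exists (h : E → Fin k) (b : Bool) (S V : E → ℝ≥0) :
    ∀ (l : List E) (hist : List (E × ℝ≥0)) (e : E), e ∈ l → Qual b h S (e, V e) →
      (∀ q ∈ hist, h q.1 = h e → ¬ Qual b h S q) →
      ∃ e' ∈ accepted (dec (h, b) S) V hist l, h e' = h e := by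
  intro l
  induction l with
  | nil => intro hist e he; simp at he
  | cons a l ih =>
    intro hist e he hq hh
    rw [accepted]
    by_cases hd : dec (h, b) S hist (a, V a) = true
    · rw [if_pos hd]
      by_cases heq : h a = h e
      · exact ⟨a, by simp, heq⟩
      · have hel : e ∈ l := by
          rcases List.mem_cons.mp he with rfl | hel
          · exact absurd rfl heq
          · exact hel
        obtain ⟨e', he', h'⟩ := ih (hist ++ [(a, V a)]) e hel hq (by
          intro q hq'
          rcases List.mem_append.mp hq' with h1 | h1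
          · exact hh q h1
          · intro h2; simp at h1; exact absurd (by rw [← h2, h1]) heq)
        exact ⟨e', by simp [he'], h'⟩
    · rw [if_neg hd]
      have hel : e ∈ l := by
        rcases List.mem_cons.mp he with rfl | hel
        · exact absurd ((dec_iff h b S hist _).mpr ⟨hq, hh⟩) hd
        · exact hel
      have hna : h a = h e → ¬ Qual b h S (a, V a) := by
        intro h2 hqa
        exact hd ((dec_iff h b S hist _).mpr ⟨hqa, fun q hq' h3 => hh q hq' (h3.trans h2)⟩)
      exact ih _ e hel hq (by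
        intro q hq'
        rcases List.mem_append.mp hq' with h1 | h1
        · exact hh q h1
        · simp at h1; subst h1; exact hna)

/-- Lower bound for the strict rule in a group: the value of its only qualifying element. -/
noncomputable def lowT (h : E → Fin k) (g : Fin k) (S V : E → ℝ≥0) : ℝ≥0∞ :=
  ⨆ e ∈ grp h g, ⨆ (_ : thr h S g < (V e : ℝ≥0∞) ∧
    ∀ e' ∈ grp h g, e' ≠ e → (V e' : ℝ≥0∞) ≤ thr h S g), (V e : ℝ≥0∞)

/-- Lower bound for the weak rule in a group: the threshold, if somebody reaches it. -/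
noncomputable def lowF (h : E → Fin k) (g : Fin k) (S V : E → ℝ≥0) : ℝ≥0∞ :=
  ⨆ e ∈ grp h g, ⨆ (_ : thr h S g ≤ (V e : ℝ≥0∞)), thr h S g

lemma low_le_gain (h : E → Fin k) (b : Bool) (S V : E → ℝ≥0) (l : List E) (hl : ∀ e, e ∈ l) :
    (∑ g, if b then lowT h g S V else lowF h g S V) ≤
      ∑ e ∈ accepted (dec (h, b) S) V [] l, (V e : ℝ≥0∞) := by
  set A := accepted (dec (h, b) S) V [] l with hA
  rw [← Finset.sum_fiberwise A h]
  refine Finset.sum_le_sum fun g _ => ?_
  have key : ∀ e ∈ grp h g, Qual b h S (e, V e) →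
      ∀ c : ℝ≥0∞, (∀ e' ∈ grp h g, Qual b h S (e', V e') → c ≤ (V e' : ℝ≥0∞)) →
      c ≤ ∑ e ∈ A.filter (fun e => h e = g), (V e : ℝ≥0∞) := by
    intro e he hq c hc
    obtain ⟨e', he', h'⟩ := acc_exists h b S V l [] e (hl e) hq (by simp)
    have hg : h e' = g := h'.trans (mem_grp.mp he)
    exact (hc e' (mem_grp.mpr hg) (acc_mem h b S V l [] e' he').1).trans
      (Finset.single_le_sum (f := fun x => (V x : ℝ≥0∞)) (fun _ _ => zero_le)
        (Finset.mem_filter.mpr ⟨he', hg⟩))
  cases b with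
  | true =>
    simp only [if_true, lowT]
    refine iSup₂_le fun e he => iSup_le fun hq => ?_
    refine key e he (by simpa [Qual, mem_grp.mp he] using hq.1) _ fun e' he' hq' => ?_
    have hq'' : thr h S g < (V e' : ℝ≥0∞) := by simpa [Qual, mem_grp.mp he'] using hq'
    by_cases hee : e' = e
    · rw [hee]
    · exact absurd hq'' (not_lt.mpr (hq.2 e' he' hee))
  | false =>
    simp only [Bool.false_eq_true, if_false, lowF]
    refine iSup₂_le fun e he => iSup_le fun hq => ?_
    exact key e he (by simpa [Qual, mem_grp.mp he] using hq) _ fun e' he' hq' => by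
      simpa [Qual, mem_grp.mp he'] using hq'

/-- Exchange of the sample and the value at the elements flagged by `σ`. -/
def sw (σ : E → Bool) (x : E → ℝ≥0 × ℝ≥0) : E → ℝ≥0 × ℝ≥0 :=
  fun e => if σ e then (x e).swap else x e

/-- The samples. -/
def smp (x : E → ℝ≥0 × ℝ≥0) : E → ℝ≥0 := fun e => (x e).1

/-- The values. -/
def vl (x : E → ℝ≥0 × ℝ≥0) : E → ℝ≥0 := fun e => (x e).2

/-- Sum of the two lower bounds of a group. -/
noncomputable def low (h : E → Fin k) (g : Fin k) (x : E → ℝ≥0 × ℝ≥0) : ℝ≥0∞ :=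
  lowT h g (smp x) (vl x) + lowF h g (smp x) (vl x)

/-- Largest value in a group. -/
noncomputable def top (h : E → Fin k) (g : Fin k) (V : E → ℝ≥0) : ℝ≥0∞ :=
  (grp h g).sup fun e => (V e : ℝ≥0∞)

lemma swap_bound (h : E → Fin k) (g : Fin k) (x : E → ℝ≥0 × ℝ≥0) :
    ∑ σ : E → Bool, top h g (vl (sw σ x)) ≤ 4 * ∑ σ : E → Bool, low h g (sw σ x) := by
  classical
  let m : E → ℝ≥0 := fun e => max (x e).1 (x e).2
  rcases (grp h g).eq_empty_or_nonempty with hG | hG
  · simp [top, hG]
  obtain ⟨e₀, he₀, hmax₀⟩ := (grp h g).exists_max_image m hG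
  have he₁ex : ∃ e₁ ∈ grp h g, ((e₁ = e₀ ∧ (grp h g).erase e₀ = ∅) ∨ e₁ ≠ e₀) ∧
      ∀ e ∈ grp h g, e ≠ e₀ → m e ≤ m e₁ := by
    rcases ((grp h g).erase e₀).eq_empty_or_nonempty with hE | hE
    · refine ⟨e₀, he₀, Or.inl ⟨rfl, hE⟩, fun e he hne => ?_⟩
      have := Finset.mem_erase.mpr ⟨hne, he⟩
      simp [hE] at this
    · obtain ⟨e₁, he₁, hmax₁⟩ := ((grp h g).erase e₀).exists_max_image m hE
      exact ⟨e₁, Finset.mem_of_mem_erase he₁, Or.inr (Finset.ne_of_mem_erase he₁),
        fun e he hne => hmax₁ e (Finset.mem_erase.mpr ⟨hne, he⟩)⟩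
  obtain ⟨e₁, he₁, hsep, hmax₁⟩ := he₁ex
  let c₀ : Bool := decide ((x e₀).2 < (x e₀).1)
  let c₁ : Bool := decide ((x e₁).1 < (x e₁).2)
  let φ : (E → Bool) → (E → Bool) := fun σ => Function.update (Function.update σ e₁ c₁) e₀ c₀
  have good : ∀ σ, top h g (vl (sw σ x)) ≤ low h g (sw (φ σ) x) := by
    intro σ
    set y := sw (φ σ) x with hy
    have hV0 : vl y e₀ = m e₀ := by
      by_cases hlt : (x e₀).2 < (x e₀).1
      · simp [hy, vl, sw, φ, c₀, hlt, m, max_eq_left hlt.le]
      · simp [hy, vl, sw, φ, c₀, hlt, m, max_eq_right (not_lt.mp hlt)]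
    have hle : ∀ e, vl y e ≤ m e ∧ smp y e ≤ m e := by
      intro e
      by_cases hs : φ σ e = true <;> simp [hy, vl, smp, sw, hs, m]
    have hrest : ∀ e ∈ grp h g, e ≠ e₀ → (vl y e : ℝ≥0∞) ≤ thr h (smp y) g := by
      intro e he hne
      rcases hsep with ⟨-, hE⟩ | hne₁
      · have := Finset.mem_erase.mpr ⟨hne, he⟩
        simp [hE] at this
      have hS1 : smp y e₁ = m e₁ := by
        by_cases hlt : (x e₁).1 < (x e₁).2
        · simp [hy, smp, sw, φ, c₁, hlt, hne₁, m, max_eq_right hlt.le]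
        · simp [hy, smp, sw, φ, c₁, hlt, hne₁, m, max_eq_left (not_lt.mp hlt)]
      calc (vl y e : ℝ≥0∞) ≤ (smp y e₁ : ℝ≥0∞) :=
            ENNReal.coe_le_coe.mpr (hS1 ▸ (hle e).1.trans (hmax₁ e he hne))
        _ ≤ thr h (smp y) g := Finset.le_sup (f := fun e => (smp y e : ℝ≥0∞)) he₁
    have hT : thr h (smp y) g ≤ (vl y e₀ : ℝ≥0∞) := by
      refine Finset.sup_le fun e he => ?_
      rw [hV0]
      exact ENNReal.coe_le_coe.mpr ((hle e).2.trans (hmax₀ e he))
    have htop : top h g (vl (sw σ x)) ≤ (vl y e₀ : ℝ≥0∞) := by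
      refine Finset.sup_le fun e he => ?_
      rw [hV0]
      refine ENNReal.coe_le_coe.mpr (le_trans ?_ (hmax₀ e he))
      by_cases hs : σ e = true <;> simp [vl, sw, hs, m]
    refine htop.trans ?_
    rcases hT.lt_or_eq with hlt | heq
    · refine le_trans ?_ le_self_add
      exact le_trans (le_iSup (f := fun _ : thr h (smp y) g < (vl y e₀ : ℝ≥0∞) ∧
        ∀ e' ∈ grp h g, e' ≠ e₀ → (vl y e' : ℝ≥0∞) ≤ thr h (smp y) g => (vl y e₀ : ℝ≥0∞))
          ⟨hlt, hrest⟩) (le_iSup₂_of_le e₀ he₀ le_rfl)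
    · refine le_trans ?_ le_add_self
      rw [← heq]
      exact le_trans (le_iSup (f := fun _ : thr h (smp y) g ≤ (vl y e₀ : ℝ≥0∞) =>
        thr h (smp y) g) hT) (le_iSup₂_of_le e₀ he₀ le_rfl)
  calc ∑ σ : E → Bool, top h g (vl (sw σ x))
      ≤ ∑ σ : E → Bool, low h g (sw (φ σ) x) := Finset.sum_le_sum fun σ _ => good σ
    _ = ∑ τ : E → Bool, ∑ σ ∈ Finset.univ.filter (fun σ => φ σ = τ), low h g (sw τ x) := by
        rw [← Finset.sum_fiberwise Finset.univ φ]
        refine Finset.sum_congr rfl fun τ _ => Finset.sum_congr rfl fun σ hσ => ?_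
        rw [(Finset.mem_filter.mp hσ).2]
    _ ≤ ∑ τ : E → Bool, 4 * low h g (sw τ x) := by
        refine Finset.sum_le_sum fun τ _ => ?_
        rw [Finset.sum_const, nsmul_eq_mul]
        gcongr
        have hcard : (Finset.univ.filter (fun σ => φ σ = τ)).card ≤
            (Finset.univ : Finset (Bool × Bool)).card := by
          refine Finset.card_le_card_of_injOn (fun σ => (σ e₀, σ e₁)) (by simp) ?_
          intro σ hσ σ' hσ' heq
          simp only [Finset.coe_filter, Finset.mem_univ, true_and, Set.mem_setOf_eq] at hσ hσ'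
          simp only [Prod.mk.injEq] at heq
          funext e
          by_cases h0 : e = e₀
          · rw [h0, heq.1]
          by_cases h1 : e = e₁
          · rw [h1, heq.2]
          have hx := congrFun (hσ.trans hσ'.symm) e
          simpa [φ, h0, h1] using hx
        calc ((Finset.univ.filter (fun σ => φ σ = τ)).card : ℝ≥0∞)
            ≤ ((Finset.univ : Finset (Bool × Bool)).card : ℝ≥0∞) := by exact_mod_cast hcard
          _ = 4 := by norm_num
    _ = 4 * ∑ σ : E → Bool, low h g (sw σ x) := by rw [Finset.mul_sum]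

/-- The number of colourings, times `k`, that give two fixed elements one colour. -/
lemma card_same (e e' : E) (hne : e' ≠ e) :
    k * (Finset.univ.filter fun h : E → Fin k => h e' = h e).card =
      Fintype.card (E → Fin k) := by
  have h0 : (Finset.univ.filter fun h : E → Fin k => h e' = h e).card * k =
      Fintype.card ({h : E → Fin k // h e' = h e} × Fin k) := by
    rw [Fintype.card_prod, Fintype.card_fin, Fintype.card_subtype]
  rw [mul_comm, h0]
  exact Fintype.card_congr
    { toFun := fun p => Function.update p.1.1 e' p.2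
      invFun := fun h => (⟨Function.update h e' (h e), by simp [Function.update_of_ne hne.symm]⟩,
        h e')
      left_inv := by
        rintro ⟨⟨h, hh⟩, j⟩
        simp [Function.update_of_ne hne.symm, ← hh]
      right_inv := fun h => by simp }

lemma group_bound (B : Finset E) (r : ℕ) (hB : B.card ≤ r) (hk : 0 < k) (V : E → ℝ≥0) :
    (k : ℝ≥0∞) * (Fintype.card (E → Fin k) : ℝ≥0∞) * ∑ e ∈ B, (V e : ℝ≥0∞) ≤
      ((k : ℝ≥0∞) + r) * ∑ h : E → Fin k, ∑ g, top h g V := by
  classical
  let n : (E → Fin k) → E → ℕ := fun h e => (B.filter fun e' => h e' = h e).card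
  let Vm : (E → Fin k) → Fin k → ℝ≥0 := fun h g => (grp h g).sup V
  have htop : ∀ h g, top h g V = (Vm h g : ℝ≥0∞) := by
    intro h g
    exact (Finset.apply_sup_eq_sup_comp (fun c : ℝ≥0 => (c : ℝ≥0∞))
      (fun _ _ => ENNReal.coe_max _ _) (by simp)).symm
  have h1 : ∀ h, ∑ e ∈ B, (V e : ℝ) / (n h e : ℝ) ≤ ∑ g, (Vm h g : ℝ) := by
    intro h
    rw [← Finset.sum_fiberwise B h]
    refine Finset.sum_le_sum fun g _ => ?_
    set F := B.filter fun e => h e = g with hF
    rcases F.eq_empty_or_nonempty with hE | hE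
    · simp [hE]
    calc ∑ e ∈ F, (V e : ℝ) / (n h e : ℝ) = ∑ e ∈ F, (V e : ℝ) / (F.card : ℝ) := by
          refine Finset.sum_congr rfl fun e he => ?_
          have hg : h e = g := (Finset.mem_filter.mp he).2
          simp [n, hg, hF]
      _ ≤ ∑ _e ∈ F, (Vm h g : ℝ) / (F.card : ℝ) := by
          refine Finset.sum_le_sum fun e he => ?_
          gcongr
          exact_mod_cast Finset.le_sup (f := V) (mem_grp.mpr (Finset.mem_filter.mp he).2)
      _ = (Vm h g : ℝ) := by
          rw [Finset.sum_const, nsmul_eq_mul]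
          field_simp
  have h2 : ∀ e ∈ B, (k : ℝ) * Fintype.card (E → Fin k) ≤
      ((k : ℝ) + r) * ∑ h : E → Fin k, 1 / (n h e : ℝ) := by
    intro e he
    have hn : ∀ h, 0 < (n h e : ℝ) := fun h => by
      have : 0 < (B.filter fun e' => h e' = h e).card :=
        Finset.card_pos.mpr ⟨e, Finset.mem_filter.mpr ⟨he, rfl⟩⟩
      exact_mod_cast this
    have hsum : k * ∑ h : E → Fin k, n h e ≤ (k + r) * Fintype.card (E → Fin k) := by
      have hswap : ∑ h : E → Fin k, n h e =
          ∑ e' ∈ B, (Finset.univ.filter fun h : E → Fin k => h e' = h e).card := by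
        simp only [n, Finset.card_filter]
        exact Finset.sum_comm
      rw [hswap, ← Finset.add_sum_erase B _ he, mul_add, Finset.mul_sum,
        Finset.sum_congr rfl fun e' he' => card_same e e' (Finset.ne_of_mem_erase he'),
        Finset.sum_const, smul_eq_mul, add_mul]
      gcongr
      · simp
      · exact (Finset.card_erase_le).trans hB
    have : NeZero k := ⟨hk.ne'⟩
    have hpos : 0 < ∑ h : E → Fin k, (n h e : ℝ) :=
      Finset.sum_pos (fun h _ => hn h) Finset.univ_nonempty
    have hcs := Finset.sq_sum_div_le_sum_sq_div (s := (Finset.univ : Finset (E → Fin k)))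
      (fun _ => (1 : ℝ)) (g := fun h => (n h e : ℝ)) (fun h _ => hn h)
    simp only [Finset.sum_const, Finset.card_univ, nsmul_eq_mul, mul_one, one_pow] at hcs
    rw [div_le_iff₀ hpos] at hcs
    have hsum' : (k : ℝ) * ∑ h : E → Fin k, (n h e : ℝ) ≤
        ((k : ℝ) + r) * Fintype.card (E → Fin k) := by exact_mod_cast hsum
    have hS0 : 0 ≤ ∑ h : E → Fin k, 1 / (n h e : ℝ) :=
      Finset.sum_nonneg fun h _ => by positivity
    have hN : 0 < (Fintype.card (E → Fin k) : ℝ) := by exact_mod_cast Fintype.card_pos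
    nlinarith [mul_le_mul_of_nonneg_left hsum' hS0]
  have hR : (k : ℝ) * Fintype.card (E → Fin k) * ∑ e ∈ B, (V e : ℝ) ≤
      ((k : ℝ) + r) * ∑ h : E → Fin k, ∑ g, (Vm h g : ℝ) := by
    calc (k : ℝ) * Fintype.card (E → Fin k) * ∑ e ∈ B, (V e : ℝ)
        ≤ ∑ e ∈ B, ((k : ℝ) + r) * (∑ h : E → Fin k, 1 / (n h e : ℝ)) * (V e : ℝ) := by
          rw [Finset.mul_sum]
          exact Finset.sum_le_sum fun e he =>
            mul_le_mul_of_nonneg_right (h2 e he) (V e).coe_nonneg
      _ = ((k : ℝ) + r) * ∑ h : E → Fin k, ∑ e ∈ B, (V e : ℝ) / (n h e : ℝ) := by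
          rw [Finset.sum_comm, Finset.mul_sum]
          refine Finset.sum_congr rfl fun e _ => ?_
          rw [mul_assoc, Finset.sum_mul]
          refine congrArg _ (Finset.sum_congr rfl fun h _ => ?_)
          ring
      _ ≤ ((k : ℝ) + r) * ∑ h : E → Fin k, ∑ g, (Vm h g : ℝ) := by
          gcongr with h
          exact h1 h
  have hN : (k : ℝ≥0) * (Fintype.card (E → Fin k) : ℝ≥0) * ∑ e ∈ B, V e ≤
      ((k : ℝ≥0) + r) * ∑ h : E → Fin k, ∑ g, Vm h g := by
    rw [← NNReal.coe_le_coe]
    push_cast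
    exact hR
  simp only [htop]
  exact_mod_cast hN

end Vale.Agent.P331
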